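import Mathlib
import Vale.Agent.P237.Quant.MomentRangeDefs

/-!
A table of tail bounds for the moment excess in large dimension, checked by the kernel.
-/

namespace Vale.Agent.P237.Quant

/-- The table for dimensions `40` to `48`. -/
def momentTableA : MomentTable where
  s₀ := (1 / 48)
  s₁ := (1 / 40)
  Q := [
    [5001100, 5001100, (-43253), (-41733)],
    [3334800, 6693926, 4429199, 6188808, (-10776529), 9791984],
    [2501650, 7504951, 16456337, (-29849575), 64251975, 23173868, (-27552466)],
    [2001761, 8007042, 33760204, (-151372832), 519679466, (-333443335), 134964645],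
    [1668501, 8342504, 58817756, (-426565746), 1913498521, (-2411416457), 2517277090,
     (-674671561)],
    [1430458, 8582749, 85108210, (-829286760), 4689484532, (-8832955031), 14537748517,
     (-6476255737), 2193785489],
    [1251926, 8763483, 90281033, (-970011961), 6465793574, (-12294981525), 27655995143,
     (-2430483757), 15016690491],
    [1113068, 8904544, 100678529, (-1274105681), 10263201995, (-24373947908), 73403183991,
     (-9366453402), 119961728682, 66123721522]]
  cuts := [(125 / 2048), (501 / 4096), (501 / 2048), (47 / 128), (2005 / 4096), (1253 / 2048),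
    (2757 / 4096), (47 / 64), (1629 / 2048), (3509 / 4096), (235 / 256), (3885 / 4096),
    (47 / 48)]
  stepCuts := [
    ([(47 / 48)],
      [(47 / 48)],
      [(2005 / 4096), (47 / 48)]),
    ([(47 / 48)],
      [(47 / 48)],
      [(125 / 2048), (501 / 4096), (501 / 2048), (2005 / 4096), (47 / 48)]),
    ([(47 / 48)],
      [(2005 / 4096), (47 / 64), (3133 / 4096), (1629 / 2048), (3509 / 4096), (47 / 48)],
      [(501 / 4096), (47 / 256), (877 / 4096), (501 / 2048), (2005 / 4096), (47 / 48)]),
    ([(47 / 48)],
      [(2005 / 4096), (141 / 256), (1253 / 2048), (47 / 64), (47 / 48)],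
      [(501 / 4096), (313 / 2048), (47 / 256), (501 / 2048), (2005 / 4096), (47 / 48)]),
    ([(47 / 48)],
      [(501 / 2048), (47 / 128), (2005 / 4096), (47 / 64), (3509 / 4096), (47 / 48)],
      [(125 / 2048), (47 / 512), (219 / 2048), (501 / 4096), (501 / 2048), (2005 / 4096),
      (47 / 48)]),
    ([(2005 / 4096), (47 / 48)],
      [(501 / 2048), (47 / 128), (2005 / 4096), (47 / 64), (47 / 48)],
      [(125 / 2048), (47 / 512), (407 / 4096), (219 / 2048), (501 / 4096), (501 / 2048),
      (2005 / 4096), (47 / 48)]),
    ([(2005 / 4096), (47 / 48)],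
      [(501 / 4096), (501 / 2048), (47 / 128), (2005 / 4096), (47 / 48)],
      [(125 / 2048), (313 / 4096), (47 / 512), (501 / 4096), (501 / 2048), (2005 / 4096),
      (47 / 48)]),
    ([(2005 / 4096), (47 / 48)],
      [(501 / 2048), (2005 / 4096), (47 / 48)],
      [(125 / 2048), (501 / 4096), (501 / 2048), (2005 / 4096), (47 / 48)])]

theorem momentTableA_check : momentTableA.check = true := by decide +kernel

end Vale.Agent.P237.Quant
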