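import Mathlib
import Vale.Agent.P237.Quant.MomentRangeDefs

/-!
A table of tail bounds for the moment excess in large dimension, checked by the kernel.
-/

namespace Vale.Agent.P237.Quant

/-- The table for dimensions `45` to `56`. -/
def momentTableB : MomentTable where
  s₀ := (1 / 56)
  s₁ := (1 / 45)
  Q := [
    [5001100, 5001100, (-40748), (-29339)],
    [3334800, 6677324, 4705632, 5000531, (-8887536), 8881926],
    [2501650, 7504951, 17426054, (-36693606), 82336268, 3805729, (-19885518)],
    [2001761, 8007042, 33900142, (-152578785), 525149051, (-335749644), 136390080],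
    [1668501, 8342504, 56751183, (-406855971), 1847092215, (-2282332088), 2434682182,
     (-645276033)],
    [1430458, 8582749, 79200434, (-757632149), 4352265011, (-7954390502), 13491700579,
     (-5609394884), 1985897410],
    [1251926, 8763483, 83867790, (-885165657), 6033481891, (-11028687950), 26207652444,
     (-442720374), 15480246828],
    [1113068, 8904544, 93356658, (-1161094467), 9572271135, (-21844029027), 69546644527,
     (-1421499591), 123675821755, 74220816110]]
  cuts := [(63 / 1024), (503 / 4096), (503 / 2048), (377 / 1024), (2011 / 4096), (1257 / 2048),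
    (3017 / 4096), (55 / 64), (55 / 56)]
  stepCuts := [
    ([(55 / 56)],
      [(55 / 56)],
      [(2011 / 4096), (55 / 56)]),
    ([(55 / 56)],
      [(55 / 56)],
      [(63 / 1024), (503 / 4096), (503 / 2048), (377 / 1024), (2011 / 4096), (55 / 56)]),
    ([(55 / 56)],
      [(2011 / 4096), (3017 / 4096), (1571 / 2048), (817 / 1024), (55 / 64), (55 / 56)],
      [(503 / 4096), (377 / 2048), (55 / 256), (503 / 2048), (2011 / 4096), (55 / 56)]),
    ([(55 / 56)],
      [(2011 / 4096), (1131 / 2048), (1257 / 2048), (3017 / 4096), (55 / 56)],
      [(503 / 4096), (157 / 1024), (377 / 2048), (503 / 2048), (2011 / 4096), (55 / 56)]),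
    ([(55 / 56)],
      [(503 / 2048), (377 / 1024), (2011 / 4096), (3017 / 4096), (55 / 64), (55 / 56)],
      [(63 / 1024), (189 / 2048), (55 / 512), (59 / 512), (503 / 4096), (503 / 2048),
      (2011 / 4096), (55 / 56)]),
    ([(2011 / 4096), (55 / 56)],
      [(503 / 2048), (377 / 1024), (2011 / 4096), (3017 / 4096), (55 / 56)],
      [(63 / 1024), (189 / 2048), (55 / 512), (503 / 4096), (503 / 2048), (2011 / 4096),
      (55 / 56)]),
    ([(2011 / 4096), (55 / 56)],
      [(503 / 4096), (503 / 2048), (2011 / 4096), (55 / 56)],
      [(63 / 1024), (71 / 1024), (315 / 4096), (189 / 2048), (503 / 4096), (503 / 2048),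
      (2011 / 4096), (55 / 56)]),
    ([(2011 / 4096), (55 / 56)],
      [(503 / 2048), (2011 / 4096), (55 / 56)],
      [(63 / 1024), (503 / 4096), (503 / 2048), (2011 / 4096), (55 / 56)])]

theorem momentTableB_check : momentTableB.check = true := by decide +kernel

end Vale.Agent.P237.Quant
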