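import Mathlib
import Vale.Agent.P237.Quant.MomentRangeDefs

/-!
A table of tail bounds for the moment excess in large dimension, checked by the kernel.
-/

namespace Vale.Agent.P237.Quant

/-- The table for dimensions `55` to `infinity`. -/
def momentTableC : MomentTable where
  s₀ := 0
  s₁ := (1 / 55)
  Q := [
    [5001100, 5001100, 0, 0],
    [3334800, 6669600, 6917304, (-3785874), 3493237, 3379533],
    [2501650, 7504951, 19534814, (-51765031), 126932803, (-44671179)],
    [2001761, 8007042, 33703903, (-156994952), 562235599, (-359947205), 151194114],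
    [1668501, 8342504, 39381290, (-213772493), 1035553318, (-437796130), 767864719],
    [1430458, 8582749, 83023470, (-764970863), 4151132070, (-6000587612), 9730281669],
    [1251926, 12140406, (-20562937), 490779146, (-2836570605), 20895555680, (-31656354134),
     63586096746],
    [1113068, 23003798, (-435664285), 7836967315, (-64956101185), 305127770848, (-676739777707),
     833002133910]]
  cuts := [(1 / 16), (1 / 8), (1 / 4), (3 / 8), (1 / 2), (5 / 8), (3 / 4), (7 / 8), 1]
  stepCuts := [
    ([1],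
      [1],
      [1]),
    ([1],
      [1],
      [(1 / 4), (3 / 8), (7 / 16), (1 / 2), 1]),
    ([1],
      [(1 / 2), (3 / 4), (13 / 16), (7 / 8), 1],
      [(1 / 8), (3 / 16), (7 / 32), (1 / 4), (1 / 2), 1]),
    ([1],
      [(1 / 2), (5 / 8), (3 / 4), 1],
      [(1 / 8), (9 / 64), (5 / 32), (3 / 16), (1 / 4), (1 / 2), 1]),
    ([1],
      [(1 / 4), (3 / 8), (1 / 2), 1],
      [(1 / 16), (3 / 32), (13 / 128), (7 / 64), (1 / 8), (1 / 4), (1 / 2), 1]),
    ([(1 / 2), 1],
      [(1 / 4), (5 / 16), (3 / 8), (1 / 2), (5 / 8), (3 / 4), 1],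
      [(1 / 8), (1 / 4), (1 / 2), 1]),
    ([(1 / 2), 1],
      [(1 / 8), (1 / 4), (5 / 16), (3 / 8), (1 / 2), (5 / 8), (3 / 4), 1],
      [(1 / 16), (9 / 128), (5 / 64), (3 / 32), (1 / 8), (1 / 4), (1 / 2), 1]),
    ([(1 / 4), (1 / 2), 1],
      [(1 / 8), (1 / 4), (9 / 32), (5 / 16), (3 / 8), (7 / 16), (1 / 2), 1],
      [(1 / 32), (5 / 128), (41 / 1024), (21 / 512), (11 / 256), (3 / 64), (1 / 16), (1 / 8),
      (1 / 4), (1 / 2), 1])]

theorem momentTableC_check : momentTableC.check = true := by decide +kernel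

end Vale.Agent.P237.Quant
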